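import Mathlib
import Vale.Agent.P151Z.Defs
import Vale.Agent.P151Z.PcLt

namespace Vale.Agent.Results.P151.Lattice

open Vale.Agent.P151Z

/-- For every `d ≥ 2`, nearest-neighbour bond percolation on `ℤ^d` has `p_c < 1` and almost surely
no infinite open cluster at `p = p_c`. -/
theorem result (d : ℕ) (hd : 2 ≤ d) :
    pc (zd d) < 1 ∧ percProb (zd d) (pc (zd d)) = 0 :=
  have h : (⟨0, by omega⟩ : Fin d) ≠ ⟨1, by omega⟩ := by simp
  ⟨pc_lt_one h, crit_zero h (pc_lt_one h)⟩

end Vale.Agent.Results.P151.Lattice
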