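import Vale.Agent.P151.Main

open Vale.Agent.P151

universe u

theorem Vale.Agent.Results.P151.Periodic.result :
    (∀ d : ℕ, 2 ≤ d → NoCritPerc (zd d)) ∧
    (∀ (H : Type u) [Group H] (S : Finset H), Subgroup.closure (S : Set H) = ⊤ →
      ∀ K : Subgroup H, K.FiniteIndex → ∀ ρ : K →* Multiplicative (ℤ × ℤ),
        Function.Surjective ρ → NoCritPerc (SimpleGraph.mulCayley (S : Set H))) ∧
    (∀ (V : Type u) (G : SimpleGraph V), G.Connected → (∀ v, (G.neighborSet v).Finite) →
      PlanePeriodic G → NoCritPerc G) :=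
  ⟨fun _ hd => zd_main hd, fun _ _ S hS K hK ρ hρ => cayley_main S hS K hK ρ hρ,
    fun _ _ hc hl hP => periodic hc hl hP⟩
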